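import Vale.Agent.P087.Final

/-!
Voiculescu's two free entropies differ on a tuple with finite microstates free entropy.
-/

namespace Vale.Agent.Results.P087.FreeEntropyGap

open Vale.Agent.P087

theorem result :
    ∃ (H : Type) (_ : NormedAddCommGroup H) (_ : InnerProductSpace ℂ H) (_ : CompleteSpace H)
      (ι : Type) (_ : Fintype ι) (_ : DecidableEq ι) (M : VonNeumannAlgebra H) (Ω : H)
      (X S : ι → H →L[ℂ] H),
      Nonempty ι ∧ IsTracialVector M Ω ∧ (∀ j, X j ∈ M ∧ IsSelfAdjoint (X j)) ∧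
        (∀ j, S j ∈ M ∧ IsSelfAdjoint (S j)) ∧ FreeSemicircularFrom Ω X S ∧
        ⊥ < chi (law Ω X) ∧ chi (law Ω X) < chiStar Ω X S ∧ chiStar Ω X S < ⊤ :=
  counterexample

end Vale.Agent.Results.P087.FreeEntropyGap
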